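import Vale.Agent.P088.R2.H650.E.Off
import Vale.Agent.P088.R2.H710.EP.DC
import Vale.Agent.P088.R2.H912.A.Sup
import Vale.Agent.P088.R2.H808.A.Sym
import Vale.Agent.P088.R2.H657.A.Tot
import Vale.Agent.P088.R2.H808.E.PF
import Vale.Agent.P088.R2.H747.A.Crt
import Vale.Agent.P088.R2.H844.E.Reg

/-!
# P088, stage 3, EST': the payments between the leaves of zone A

`pay_AA`: for `k, j` among `A1`, `A2`, `Af` the zone `j` pays the cost of the zone `k` where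
`tinf ≤ 0`.
-/

open Set Filter
open scoped ContDiff Topology

noncomputable section

namespace Vale.Agent.P088.R2.H650.E

open Vale.Agent.P088.LR Vale.Agent.P088.HY
open Vale.Agent.P088.R2.H31.EP
open Vale.Agent.P088.R2.H551.E
open Vale.Agent.P088.R2.H961.GW
open Vale.Agent.P088.R2.H455.E
open Vale.Agent.P088.R2.H558.G
open Vale.Agent.P088.R2.H867.EP
open Vale.Agent.P088.R2.H710.GP Vale.Agent.P088.R2.H710.DC
open Vale.Agent.P088.R2.H932.EP (JB J1 jb_cmp NrC evNr cSt cSt_one)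
open Vale.Agent.P088.R2.H509.Jet Vale.Agent.P088.R2.H509.TG Vale.Agent.P088.R2.H509.DW
open Vale.Agent.P088.R2.H464.Cu (rq)

variable {n : ℕ} {q : Cst} {d : Pk n} {z : VV n}

/-! ## The cut-off of the far zone -/

theorem path_Af {i : Cut} (hi : i ∈ path .Af) : i = .inf ∨ i = .rs ∨ i = .r ∨ i = .far := by
  cases i <;> revert hi <;> decide

/-- The derivative of `ρ`. -/
theorem fd_ρ (hq : PC n q) (h : PkOk q d) (us : z ∈ (US q : Set (VV n))) {v : VV n}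
    (hv : ‖v‖ ≤ 1) : |fderiv ℝ (rq (gi d.s₁)) z v| ≤ Cr n q := by
  have hL := hq.nr.sm d h
  have c6 := Cr_nn (n := n) hq.gd.rad
  have dρ : DifferentiableAt ℝ (rq (gi d.s₁)) z := (hL.rq.differentiable (by simp)) z
  have hs : ContDiff ℝ ∞ (r2 (gi d.s₁) : VV n → ℝ) := contDiff_const.mul hL.rq
  have k3 : D1 2 (Cr n q) (r2 (gi d.s₁) : VV n → ℝ) z := by
    have hp := Cst.p₁_ge hq.gd.rad
    have hR : 1 ≤ q.R := hq.gd.inf.R1
    have h2 := H222.ck_gi (k := 2) h hR hq.gd.ε0.le (by norm_num) hq.gd.ε1 hq.gd.εn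
    have ho : IsOpen (US q : Set (VV n)) := isOpen_lt H222.continuous_qq continuous_const
    have h3 : H222.Bk 2 (US q) (H222.c1 n 2 (3 * q.p₁) * (H222.cG n 2 * q.ε))
        (fun z : VV n => r2 (gi d.s₁) z - qq z) :=
      H222.bk_r2_sub (k := 2) (r0 := 3 * q.p₁) ho (by linarith) (fun z hz => le_of_lt hz)
        (O := univ) (fun _ _ => mem_univ _) h2
    have k1 : D1 2 (H222.c1 n 2 (3 * q.p₁) * (H222.cG n 2 * q.ε))
        (fun z : VV n => r2 (gi d.s₁) z - qq z) z := fun j _ hj => h3.b j hj z us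
    have k2 : D1 2 (Bq n 2 q) (qq (n := n)) z := d1_qq (by linarith) (le_of_lt us)
    have k3 := D1.add (hs.sub qq_sm) qq_sm k1 k2
    have e : (fun y : VV n => r2 (gi d.s₁) y - qq y + qq y) = r2 (gi d.s₁) := by
      funext y
      ring
    rw [e] at k3
    have c1 := H222.c1_nonneg (n := n) (k := 2) (r0 := 3 * q.p₁) (by linarith)
    have c2 := H222.cG_nonneg n 2
    refine k3.le ?_
    unfold Cr
    have h5 : H222.cG n 2 * q.ε ≤ H222.cG n 2 := mul_le_of_le_one_right c2 hq.gd.ε1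
    have := mul_le_mul_of_nonneg_left h5 c1
    linarith
  have k4 := k3.dir (by norm_num) v
  have e : fderiv ℝ (r2 (gi d.s₁)) z v = 2 * fderiv ℝ (rq (gi d.s₁)) z v := by
    have : HasFDerivAt (r2 (gi d.s₁)) ((2 : ℝ) • fderiv ℝ (rq (gi d.s₁)) z) z :=
      dρ.hasFDerivAt.const_mul 2
    rw [this.fderiv]
    simp
  rw [e, abs_mul, abs_two] at k4
  have k5 : Cr n q * ‖v‖ ≤ Cr n q := mul_le_of_le_one_right c6 hv
  have := abs_nonneg (fderiv ℝ (rq (gi d.s₁)) z v)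
  linarith

/-- The constant of the far zone. -/
def Cf (n : ℕ) (q : Cst) : ℝ := 10 * cSt + |Cd2 n q|

theorem Cf_nn : 0 ≤ Cf n q := by
  have := cSt_one
  unfold Cf
  positivity

/-- **The first derivatives of the cut-off of the far zone** (from `|D u| ≤ 2`). -/
theorem chAf (hn : 1 ≤ n) : ∃ B : Cst → ℝ, NB_c' B ∧ (∀ q, 0 ≤ B q) ∧ EvC fun q =>
    ∀ d : Pk n, PkOk q d → ∀ z, d.tinf q z ≤ 0 → d.u q z ≤ d.uta q → d.ch q .Af z ≠ 0 →
      ∀ v : VV n, ‖v‖ ≤ 1 → |fderiv ℝ (d.u q) z v| ≤ 2 → |fderiv ℝ (d.ch q .Af) z v| ≤ B q := by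
  refine ⟨fun q => bF (Cf n q), fun _ => rfl, fun q => bF_nn Cf_nn, (evPC hn).mono ?_⟩
  intro q hq d h z ht hu1 ha v hv hu
  have hL := hq.nr.sm d h
  have s1 := sq_p hq.gd.rad
  have hr2 : (3 / 2 * q.p₁) ^ 2 ≤ d.r2 z := sd_Af ha hL.cp
  have hp := p₁_big hq.gd.rad
  refine d1_ch hL Cf_nn fun i hi h0 h1 => ?_
  rcases path_Af hi with rfl | rfl | rfl | rfl
  · exact absurd h0 (not_lt.2 ht)
  · have hV := hq.nr.j1_VS h hu1
    have e : d.cv q .rs = fun y => d.VS q (d.u q y) := by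
      funext y
      show (d.VS q (d.u q y) - 0) / 1 = _
      rw [sub_zero, div_one]
    have dV : DifferentiableAt ℝ (d.VS q) (d.u q z) := hV.sm.differentiableAt (by norm_num)
    have h1 : HasFDerivAt (fun y => d.VS q (d.u q y))
        (deriv (d.VS q) (d.u q z) • fderiv ℝ (d.u q) z) z :=
      dV.hasDerivAt.comp_hasFDerivAt z ((hL.u.differentiable (by simp)) z).hasFDerivAt
    rw [e, h1.fderiv]
    have e2 : (deriv (d.VS q) (d.u q z) • fderiv ℝ (d.u q) z) v =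
        deriv (d.VS q) (d.u q z) * fderiv ℝ (d.u q) z v := rfl
    rw [e2, abs_mul]
    have cs := cSt_one
    have h2 := mul_le_mul hV.e1 hu (abs_nonneg _) (by positivity)
    refine h2.trans ?_
    have := abs_nonneg (Cd2 n q)
    unfold Cf
    linarith
  · exfalso
    have h3 := hq.gt.c0
    have h4 := hq.gt.c1
    have h5 : (2 * rq (gi d.s₁) z - q.c₀ ^ 2) / (3 * q.c₀ ^ 2) < 1 := h1
    rw [div_lt_one (by positivity)] at h5
    have e1 : d.r2 z = 2 * rq (gi d.s₁) z := rfl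
    rw [e1] at hr2
    nlinarith
  · have hus : z ∈ (US q : Set (VV n)) := by
      have e : d.cv q .far z = (2 * rq (gi d.s₁) z - (3 / 2 * q.p₁) ^ 2) /
        ((2 * q.p₁) ^ 2 - (3 / 2 * q.p₁) ^ 2) := rfl
      rw [e, div_lt_one s1.2] at h1
      have h4 := abs_le.1 (dist_le hq.gd h z)
      have e1 : r2 (gi d.s₁) z = 2 * rq (gi d.s₁) z := rfl
      rw [e1] at h4
      show qq z < (3 * q.p₁) ^ 2
      nlinarith [h4.1]
    have dρ : DifferentiableAt ℝ (rq (gi d.s₁)) z := (hL.rq.differentiable (by simp)) z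
    have e : d.cv q .far = tauD (3 / 2 * q.p₁) (2 * q.p₁) (rq (gi d.s₁)) := rfl
    rw [e, fd_tauD _ _ dρ v, abs_mul, abs_of_pos (by
      have := s1.2
      positivity)]
    have h2 : 2 / ((2 * q.p₁) ^ 2 - (3 / 2 * q.p₁) ^ 2) * |fderiv ℝ (rq (gi d.s₁)) z v| ≤
        2 / ((2 * q.p₁) ^ 2 - (3 / 2 * q.p₁) ^ 2) * Cr n q :=
      mul_le_mul_of_nonneg_left (fd_ρ hq h hus hv) (by
        have := s1.2
        positivity)
    have h3 := le_abs_self (Cd2 n q)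
    have e2 : 2 / ((2 * q.p₁) ^ 2 - (3 / 2 * q.p₁) ^ 2) * Cr n q = Cd2 n q := rfl
    have cs := cSt_one
    unfold Cf
    linarith

/-! ## All the leaves of zone A -/

/-- The leaves of zone A. -/
def LA (k : Zo) : Prop := k = .A1 ∨ k = .A2 ∨ k = .Af

/-- **The sums of the squares of the first derivatives of the cut-offs.** -/
theorem chA_all (hn : 1 ≤ n) : ∃ B : Cst → ℝ, NB_c' B ∧ (∀ q, 0 ≤ B q) ∧ EvC fun q =>
    ∀ d : Pk n, PkOk q d → ∀ z, d.tinf q z ≤ 0 → ∀ k, LA k → d.ch q k z ≠ 0 →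
      z ∈ H747.A.OmA q d ∧ ∑ i, d.sx.D i (d.ch q k) z ^ 2 ≤ B q ∧
        ∑ i, d.sy.D i (d.ch q k) z ^ 2 ≤ B q := by
  obtain ⟨B₁, b1, b2, b3⟩ := chA hn
  obtain ⟨B₂, c1, c2, c3⟩ := chAf hn
  obtain ⟨C, -, -, y⟩ := H808.A.rowSym n (fun _ => 1) (fun _ => rfl) fun _ => one_pos
  have s1 := H912.A.rowSup n .A1 (by simp)
  have s2 := H912.A.rowSup n .A2 (by simp)
  have s3 := H912.A.rowSup n .Af (by simp)
  refine ⟨fun q => n * (max (B₁ q) (B₂ q)) ^ 2, fun q => ?_, fun q => by positivity,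
    ((b3.and c3).and (y.and (s1.and (s2.and s3)))).mono ?_⟩
  · show n * (max (B₁ q.b_c') (B₂ q.b_c')) ^ 2 = _
    rw [b1 q, c1 q]
  rintro q ⟨⟨hA, hF⟩, hy, s1, s2, s3⟩ d h z ht k hk ha
  have hz : z ∈ H747.A.OmA q d := by
    have hz := subset_tsupport (d.ch q k) ha
    rcases hk with rfl | rfl | rfl
    · exact (s1 d h).2 hz
    · exact (s2 d h).2 hz
    · exact (s3 d h).2 hz
  have hu : d.u q z ≤ d.uta q := hz.1.2.2.2.2.2.1.le
  have hB := (hy d h z hz.1).1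
  have key : ∀ v : VV n, ‖v‖ ≤ 1 → |fderiv ℝ (d.u q) z v| ≤ 2 →
      fderiv ℝ (d.ch q k) z v ^ 2 ≤ max (B₁ q) (B₂ q) ^ 2 := by
    intro v hv h2
    have h3 : |fderiv ℝ (d.ch q k) z v| ≤ max (B₁ q) (B₂ q) := by
      rcases hk with rfl | rfl | rfl
      · exact (hA d h z ht .A1 (Or.inl rfl) ha v hv h2).trans (le_max_left _ _)
      · exact (hA d h z ht .A2 (Or.inr rfl) ha v hv h2).trans (le_max_left _ _)
      · exact (hF d h z ht hu ha v hv h2).trans (le_max_right _ _)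
    rw [← sq_abs]
    exact pow_le_pow_left₀ (abs_nonneg _) h3 2
  have ex : ∀ f : VV n → ℝ, ∀ i, d.sx.D i f z = fderiv ℝ f z (Pi.single i 1, 0) := fun f i => by
    show (1 : ℝ) * _ = _
    rw [one_mul]
    rfl
  have ey : ∀ f : VV n → ℝ, ∀ i, d.sy.D i f z = fderiv ℝ f z (0, Pi.single i 1) := fun f i => by
    show (1 : ℝ) * _ = _
    rw [one_mul]
    rfl
  refine ⟨hz, ?_, ?_⟩
  · calc ∑ i, d.sx.D i (d.ch q k) z ^ 2 ≤ ∑ _i : Fin n, max (B₁ q) (B₂ q) ^ 2 := by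
          refine Finset.sum_le_sum fun i _ => ?_
          rw [ex]
          refine key _ (norm_ex (n := n) (Sum.inl i)) ?_
          rw [← ex]
          exact hB.x i
      _ = _ := by rw [Finset.sum_const, nsmul_eq_mul, Finset.card_univ, Fintype.card_fin]
  · calc ∑ i, d.sy.D i (d.ch q k) z ^ 2 ≤ ∑ _i : Fin n, max (B₁ q) (B₂ q) ^ 2 := by
          refine Finset.sum_le_sum fun i _ => ?_
          rw [ey]
          refine key _ (norm_ex (n := n) (Sum.inr i)) ?_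
          rw [← ey]
          exact hB.y i
      _ = _ := by rw [Finset.sum_const, nsmul_eq_mul, Finset.card_univ, Fintype.card_fin]

/-- The form `Γ` of the slots. -/
theorem sx_form (cn : H657.A.Cnd n q) (ok : PkOk q d) (f : VV n → ℝ) (z : VV n) :
    1 / 2 * ∑ i, d.sx.D i f z ^ 2 ≤ d.sx.Γ f f z ∧ d.sx.Γ f f z ≤ 2 * ∑ i, d.sx.D i f z ^ 2 := by
  have h := abs_le.1 (H657.A.bf_le cn.εn (fun i j => H657.A.TR.b0 (H657.W.Rg.t1 ok.rg) z.1 i j)
    fun i => d.sx.D i f z)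
  have h0 : 0 ≤ ∑ i, d.sx.D i f z ^ 2 := Finset.sum_nonneg fun _ _ => sq_nonneg _
  have e1 : d.sx.Γ f f z = ∑ i, ∑ j, d.s₁ z.1 i j * d.sx.D i f z * d.sx.D j f z := rfl
  rw [e1]
  constructor
  · linarith [h.1]
  · linarith [h.2]

theorem sy_form (cn : H657.A.Cnd n q) (ok : PkOk q d) (f : VV n → ℝ) (z : VV n) :
    1 / 2 * ∑ i, d.sy.D i f z ^ 2 ≤ d.sy.Γ f f z ∧ d.sy.Γ f f z ≤ 2 * ∑ i, d.sy.D i f z ^ 2 := by
  have h := abs_le.1 (H657.A.bf_le cn.εn (fun i j => H657.A.TR.b0 (H657.W.Rg.t2 ok.rg) z.2 i j)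
    fun i => d.sy.D i f z)
  have h0 : 0 ≤ ∑ i, d.sy.D i f z ^ 2 := Finset.sum_nonneg fun _ _ => sq_nonneg _
  have e1 : d.sy.Γ f f z = ∑ i, ∑ j, d.s₂ z.2 i j * d.sy.D i f z * d.sy.D j f z := rfl
  rw [e1]
  constructor
  · linarith [h.1]
  · linarith [h.2]

/-- `F ≥ (rT M₀)² / 128` in both slots of zone A. -/
theorem F_big (cn : H657.A.Cnd n q) (ok : PkOk q d) (hM : 1 ≤ q.M₀) (hc : 0 < q.c₀)
    (hT : 0 < q.rT) (hz : z ∈ H747.A.OmA q d) :
    (q.rT * q.M₀) ^ 2 ≤ 128 * d.sx.F (d.W q) z ∧ (q.rT * q.M₀) ^ 2 ≤ 128 * d.sy.F (d.W q) z := by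
  have r0 := (H747.A.rr_pos hc hz.1).2
  have h1 : q.M₀ ≤ d.N q z := ok.N_ge _
  have h2 := (H747.A.NG_ge ok hM r0).2.1
  have h3 : q.M₀ ≤ H747.A.NG q d z := by
    unfold H747.A.NG
    linarith
  have h4 : (q.rT / 8 * q.M₀) ^ 2 ≤ (q.rT / 8 * H747.A.NG q d z) ^ 2 := by
    refine pow_le_pow_left₀ (by positivity) ?_ 2
    exact mul_le_mul_of_nonneg_left h3 (by positivity)
  have h5 := H657.A.F_ge_x cn ok z
  have h6 := H657.A.F_ge_y cn ok z
  have h7 := hz.2.1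
  have h8 := hz.2.2
  have e : (q.rT * q.M₀) ^ 2 = 64 * (q.rT / 8 * q.M₀) ^ 2 := by ring
  rw [e]
  constructor <;> linarith

/-- **The payments between the leaves of zone A.** -/
theorem pay_AA (hn : 1 ≤ n) {L : Lc n} (hL : L.Ok) {k j : Zo} (hk : LA k) (hj : LA j) :
    ∃ th : Cst → ℝ, SmE th ∧ ∀ e : Cst → ℝ, SmE e → (∀ q, e q ≤ th q) →
      EvC fun q => ∀ d : Pk n, PkOk q d → ∀ z, d.tinf q z ≤ 0 → d.ch q k z ≠ 0 →
        d.ch q j z ≠ 0 → ∀ a b : VV n → ℝ,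
          34 * den d q (coz L e q d k) a b z ≤ den d q (Mz L q d j) a b z := by
  obtain ⟨B, bN, b0, hB⟩ := chA_all hn
  refine ⟨fun q => 1 / (29376 * (B q + 1)), ⟨fun q => ?_, fun q => ?_⟩, fun e he hth => ?_⟩
  · show 1 / (29376 * (B q.b_c' + 1)) = _
    rw [bN q]
  · have := b0 q
    positivity
  have hM : EvC fun q => 0 < q.rT → 384 * (408 * B q / e q + 1) ≤ (q.rT * q.M₀) ^ 2 := by
    have h1 := EvC.at_M₀ (fun q t => 0 < q.rT → 384 * (408 * B q / e q + 1) ≤ (q.rT * t) ^ 2)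
      fun q => by
        by_cases h : 0 < q.rT
        · have h3 : Tendsto (fun t : ℝ => q.rT * t) atTop atTop :=
            tendsto_id.const_mul_atTop h
          have h4 := (tendsto_pow_atTop (two_ne_zero)).comp h3
          exact (h4.eventually_ge_atTop (384 * (408 * B q / e q + 1))).mono fun t ht _ => ht
        · exact Eventually.of_forall fun _ h' => absurd h' h
    refine h1.mono fun q h => ?_
    have e1 : B q.b_M₀ = B q := by
      rw [← bN q.b_M₀, ← bN q]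
      rfl
    have e2 : e q.b_M₀ = e q := by
      rw [← he.1 q.b_M₀, ← he.1 q]
      rfl
    rw [e1, e2] at h
    exact h
  refine ((hB.and hM).and ((H657.A.ev_cnd n).and EvC.pos)).mono ?_
  rintro q ⟨⟨hB, hM⟩, cn, hp⟩ d ok z ht ha hb a b
  have hc : 0 < q.c₀ := hp.1.2.2.2.2.2.1
  have hT : 0 < q.rT := hp.1.2.2.2.2.2.2.2.1
  have hM1 : 1 ≤ q.M₀ := hp.2.2.1
  obtain ⟨hz, hx, hy⟩ := hB d ok z ht k hk ha
  have e0 : 0 < e q := he.2 q
  have B0 := b0 q
  have μ0 := hL.μA.1 q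
  have r0 := (H747.A.rr_pos hc hz.1).2
  have hth := hth q
  rw [le_div_iff₀ (by positivity)] at hth
  have eB : e q * B q ≤ 1 / 29376 := by nlinarith
  have nu : H808.PF.Nu 34 (e q) 1 (B q) 6 (408 * B q / e q + 1) := by
    refine ⟨by norm_num, e0, one_pos, B0, by norm_num, by positivity, ?_, ?_, ?_⟩
    · nlinarith
    · have : 34 * (6 * 1 * B q / e q) = 1 / 2 * (408 * B q / e q) := by ring
      rw [this]
      linarith
    · nlinarith
  have hm := H657.A.mA_nn (μ₀ := L.μA) μ0 cn ok r0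
  obtain ⟨Fx, Fy⟩ := F_big cn ok hM1 hc hT hz
  have hM := hM hT
  have wx := (sx_form cn ok (d.W q) z).1
  have wy := (sy_form cn ok (d.W q) z).1
  have gx := (sx_form cn ok (d.ch q k) z).2
  have gy := (sy_form cn ok (d.ch q k) z).2
  have exF : d.sx.F (d.W q) z = d.sx.Γ (d.W q) (d.W q) z := rfl
  have eyF : d.sy.F (d.W q) z = d.sy.Γ (d.W q) (d.W q) z := rfl
  have c1 : H808.PF.Cb d.sx (d.W q) (d.ch q k) (B q) 6 (1 / 3 * d.sx.F (d.W q) z) z :=
    ⟨hx, by linarith, by rw [exF]; linarith⟩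
  have c2 : H808.PF.Cb d.sy (d.W q) (d.ch q k) (B q) 6 (1 / 3 * d.sy.F (d.W q) z) z :=
    ⟨hy, by linarith, by rw [eyF]; linarith⟩
  have main := H808.PF.pay_coA (v₁ := fun _ => 0) (v₂ := fun _ => 0) (a := a) (b := b) nu hm
    (by rw [one_mul]) c1 c2 (by linarith) (by linarith)
    (H808.PF.pays_MA (σ := d.sx) (τ := d.sy) (W := d.W q) (m := H747.A.mA L.μA q d)
      (κ₀ := L.kA q) (z := z) (by linarith [(hL.kA.1 q).2]))
  rcases hk with rfl | rfl | rfl <;> rcases hj with rfl | rfl | rfl <;> exact main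

/-- `pay_AA` in the common form: every `k, j` among `A1`, `A2`, `Af`. -/
theorem payF_AA (hn : 1 ≤ n) {L : Lc n} (hL : L.Ok) {k j : Zo} (hk : LA k) (hj : LA j) :
    H844.E.PayF L k j := pay_AA hn hL hk hj

end Vale.Agent.P088.R2.H650.E
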