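import Vale.Agent.P088.R2.H650.E.Om
import Vale.Agent.P088.R2.H710.EP.PY
import Vale.Agent.P088.R2.H222.P.PSz
import Vale.Agent.P088.R2.H281.P.PSup
import Vale.Agent.P088.R2.H808.A.Sym
import Vale.Agent.P088.R2.H844.E.Reg

/-!
# P088, stage 3, EST': the payments at the passes, without hypotheses

helper710's theorems with the rows P-SUP (helper281), P-SZ (helper222), A-SYM (helper808) and the
bound `omOk` of the function `omP`.
-/

open Set Filter
open scoped ContDiff Topology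

noncomputable section

namespace Vale.Agent.P088.R2.H650.E

open Vale.Agent.P088.LR Vale.Agent.P088.HY
open Vale.Agent.P088.R2.H31.EP
open Vale.Agent.P088.R2.H551.E
open Vale.Agent.P088.R2.H961.GW
open Vale.Agent.P088.R2.H455.E
open Vale.Agent.P088.R2.H867.EP
open Vale.Agent.P088.R2.H710.DC
open Vale.Agent.P088.R2.H710.PY (OmOk zP zT)
open Vale.Agent.P088.R2.H660.P (dD omP RowPSz)
open Vale.Agent.P088.R2.H747.A (GG)

variable {n : ℕ} {q : Cst} {d : Pk n} {z : VV n} {L : Lc n}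

/-- **The bound of `omP`.** -/
theorem omOk (hn : 1 ≤ n) (k : Zo) : OmOk (fun q (d : Pk n) => omP d (d.ch q k)) k := by
  refine ⟨fun _ => 2 * n + 18 * n ^ 4, fun _ => rfl, (H349.EP.EvC.fwQ hn).mono ?_⟩
  intro q hq d ok z
  refine ⟨?_, fun b b0 h => (omP_le hq ok b0 h).2.trans ?_⟩
  · have p1 : 0 ≤ dD d.sx (d.ch q k) z := Finset.sum_nonneg fun _ _ => sq_nonneg _
    have p2 : 0 ≤ dD d.sy (d.ch q k) z := Finset.sum_nonneg fun _ _ => sq_nonneg _
    show 0 ≤ omP d (d.ch q k) z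
    unfold omP
    positivity
  · have e : 2 * (n * b ^ 2) + 2 * ((n : ℝ) ^ 2 * (3 * b)) ^ 2 =
      (2 * n + 18 * n ^ 4) * b ^ 2 := by ring
    rw [e]
    refine mul_le_mul_of_nonneg_left ?_ (by positivity)
    nlinarith [sq_nonneg (b ^ 2)]

/-- **Row P-SZ.** -/
theorem rowPSz (n : ℕ) : RowPSz n := by
  intro N₁ e₂ hN he h0
  refine (H222.P.rowPSz' n N₁ e₂ hN he h0).mono ?_
  rintro q ⟨a, b, c⟩
  refine ⟨a, b, fun d ok b z hz => ?_⟩
  obtain ⟨c1, c2, c3, c4, c5, c6, c7, c8, c9, c10, c11, c12⟩ := c d ok b z hz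
  exact ⟨c1, c2, c3, c4, c5, c6, c7, c8, c9, c10, c11, c12.trans (by linarith)⟩

/-! ## The pairs -/

section pairs

variable (hn : 1 ≤ n) (hL : L.Ok) (hG : L.GP = GG)
  (hom : L.om = fun k q (d : Pk n) => omP d (d.ch q k))

include hn hL hG hom

/-- **The pairs with a pass**: the costs of `A1`, `A2` at the passes, the costs of the passes at
`A1`, `A2`, at the same pass and at the tube. -/
theorem payF_P :
    (∀ k, (k = .A1 ∨ k = .A2) → ∀ j, (j = .P1 ∨ j = .P2) → H844.E.PayF L k j) ∧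
      (∀ k, (k = .P1 ∨ k = .P2) → ∀ j, (j = .A1 ∨ j = .A2) → H844.E.PayF L k j) ∧
      H844.E.PayF L .P1 .P1 ∧ H844.E.PayF L .P2 .P2 ∧ H844.E.PayF L .P1 .T1 ∧
      H844.E.PayF L .P2 .T2 := by
  have hS : H747.A.RowSym n := H808.A.rowSym n
  have hU := H281.P.rowPSup n
  have hZ := rowPSz n
  have h1 : OmOk (L.om .P1) .P1 := by
    rw [hom]
    exact omOk hn .P1
  have h2 : OmOk (L.om .P2) .P2 := by
    rw [hom]
    exact omOk hn .P2
  refine ⟨fun k hk j hj => ?_, fun k hk j hj => ?_, ?_, ?_, ?_, ?_⟩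
  · rcases hj with rfl | rfl
    · exact H710.PY.pay_AP hn hS hU hZ hL hG hk true
    · exact H710.PY.pay_AP hn hS hU hZ hL hG hk false
  · rcases hk with rfl | rfl
    · exact H710.PY.pay_PA hn hU hZ hL hG h1 h2 true hj
    · exact H710.PY.pay_PA hn hU hZ hL hG h1 h2 false hj
  · exact H710.PY.pay_PP hn hU hZ hL hG h1 h2 true
  · exact H710.PY.pay_PP hn hU hZ hL hG h1 h2 false
  · exact H710.PY.pay_PT hn hS hU hZ hL hG h1 h2 true
  · exact H710.PY.pay_PT hn hS hU hZ hL hG h1 h2 false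

end pairs

end Vale.Agent.P088.R2.H650.E
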