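import Vale.Agent.P088.R2.H558.G.TopL
import Vale.Agent.P088.R2.H303.F.ZoneU
import Vale.Agent.P088.R2.H380.INF.Let

/-!
# P088, stage 3, EST': the costs vanish off the closed support of the cut-off

`Row Off` for the letters of helper455 (`Lett.lean`): off `tsupport (d.ch q k)` the cut-off vanishes
near the point, so all its derivatives vanish.
-/

open Set Filter MeasureTheory
open scoped ContDiff Topology Matrix

noncomputable section

namespace Vale.Agent.P088.R2.H650.E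

open Vale.Agent.P088.LR Vale.Agent.P088.HY
open Vale.Agent.P088.R2.H31.EP
open Vale.Agent.P088.R2.H551.E
open Vale.Agent.P088.R2.H961.GW
open Vale.Agent.P088.R2.H455.E
open Vale.Agent.P088.R2.H558.G
open Vale.Agent.P088.R2.H867.EP (Zo zos mem_zos)
open Vale.Agent.P088.R2.H867.Z (sq1 sqp)

section gen

variable {E ι : Type*} [NormedAddCommGroup E] [NormedSpace ℝ E] {χ : E → ℝ} {z : E}

omit [NormedSpace ℝ E] in
/-- Off the closed support the function vanishes near the point. -/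
theorem ev0 (hz : z ∉ tsupport χ) : χ =ᶠ[𝓝 z] fun _ => (0 : ℝ) := by
  filter_upwards [(isClosed_tsupport χ).isOpen_compl.mem_nhds hz] with w hw using
    image_eq_zero_of_notMem_tsupport hw

theorem D0 (σ : Sl E ι) (hz : z ∉ tsupport χ) (i : ι) : σ.D i χ z = 0 := by
  rw [D_congr_nhds σ (ev0 hz) i, D_const]

variable [Fintype ι]

theorem G0l (σ : Sl E ι) (hz : z ∉ tsupport χ) (f : E → ℝ) : σ.Γ χ f z = 0 := by
  unfold Sl.Γ
  simp [D0 σ hz]

theorem G0r (σ : Sl E ι) (hz : z ∉ tsupport χ) (f : E → ℝ) : σ.Γ f χ z = 0 := by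
  unfold Sl.Γ
  simp [D0 σ hz]

/-- The cost of zone A. -/
theorem coA_zr (σ τ : Sl E ι) (W m : E → ℝ) (η : ℝ) (hz : z ∉ tsupport χ) :
    Zr (H747.SW.coA σ τ W m χ η) z := by
  have h1 := D0 σ hz
  have h2 := D0 τ hz
  have h3 := G0l σ hz χ
  have h4 := G0l τ hz χ
  constructor <;> simp [H747.SW.coA, h1, h2, h3, h4]

/-- The cost of the zone of helper303. -/
theorem coU_zr (σ τ : Sl E ι) (m₁ m₂ : E → ℝ) (η : ℝ) (hz : z ∉ tsupport χ) :
    Zr (H303.F.coU σ τ m₁ m₂ χ η) z := by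
  have h3 := G0l σ hz χ
  have h4 := G0l τ hz χ
  constructor <;> simp [H303.F.coU, h3, h4]

/-- The cost of the zone S of helper168. -/
theorem cS_zr (σ τ : Sl E ι) (W lam mu : E → ℝ) (hz : z ∉ tsupport χ) :
    Zr (H168.INF.cS σ τ W χ lam mu) z := by
  have h1 := D0 σ hz
  have h2 := D0 τ hz
  have h3 := fun f => G0l σ hz f
  have h4 := fun f => G0l τ hz f
  constructor <;> simp [H168.INF.cS, H168.INF.cw, H168.INF.HH, h1, h2, h3, h4]

omit [NormedSpace ℝ E] [Fintype ι] in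
/-- The closed support of a product. -/
theorem off_mul (hz : z ∉ tsupport χ) (f : E → ℝ) : z ∉ tsupport fun z => χ z * f z :=
  fun h => hz (tsupport_mul_subset_left h)

omit [NormedSpace ℝ E] [Fintype ι] in
theorem off_mul' (hz : z ∉ tsupport χ) (f : E → ℝ) : z ∉ tsupport fun z => f z * χ z :=
  fun h => hz (tsupport_mul_subset_right h)

/-- The cost of the passes: the function `om` vanishes. -/
theorem coP_zr (σ τ : Sl E ι) (W G om : E → ℝ) (C : ℝ) (h : om z = 0) :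
    Zr (H660.P.coP σ τ W G om C) z := by
  constructor <;> simp [H660.P.coP, h]

theorem coPm_zr (σ τ : Sl E ι) (W G om : E → ℝ) (C : ℝ) (h : om z = 0) :
    Zr (H660.P.coPm σ τ W G om C) z := by
  constructor <;> simp [H660.P.coPm, h]

omit [NormedAddCommGroup E] [NormedSpace ℝ E] [Fintype ι] in
theorem Zr.sm {q : Q8 E} (f : E → ℝ) (hq : Zr q z) : Zr (q.sm f) z := by
  constructor
  · show f z * q.κ z = 0
    rw [hq.κ, mul_zero]
  · show f z * q.ζ₁ z = 0
    rw [hq.ζ₁, mul_zero]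
  · show f z * q.ζ₂ z = 0
    rw [hq.ζ₂, mul_zero]
  · show f z * q.ζy z = 0
    rw [hq.ζy, mul_zero]
  · show f z * q.w₁ z = 0
    rw [hq.w₁, mul_zero]
  · show f z * q.w₂ z = 0
    rw [hq.w₂, mul_zero]
  · show f z * q.wb z = 0
    rw [hq.wb, mul_zero]
  · show f z * q.wc z = 0
    rw [hq.wc, mul_zero]

omit [NormedAddCommGroup E] [NormedSpace ℝ E] [Fintype ι] in
theorem Zr.sm0 {f : E → ℝ} (q : Q8 E) (hf : f z = 0) : Zr (q.sm f) z := by
  constructor
  · show f z * q.κ z = 0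
    rw [hf, zero_mul]
  · show f z * q.ζ₁ z = 0
    rw [hf, zero_mul]
  · show f z * q.ζ₂ z = 0
    rw [hf, zero_mul]
  · show f z * q.ζy z = 0
    rw [hf, zero_mul]
  · show f z * q.w₁ z = 0
    rw [hf, zero_mul]
  · show f z * q.w₂ z = 0
    rw [hf, zero_mul]
  · show f z * q.wb z = 0
    rw [hf, zero_mul]
  · show f z * q.wc z = 0
    rw [hf, zero_mul]

omit [NormedAddCommGroup E] [NormedSpace ℝ E] [Fintype ι] in
theorem Zr.add {p q : Q8 E} (hp : Zr p z) (hq : Zr q z) : Zr (p + q) z := by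
  constructor
  · show p.κ z + q.κ z = 0
    rw [hp.κ, hq.κ, add_zero]
  · show p.ζ₁ z + q.ζ₁ z = 0
    rw [hp.ζ₁, hq.ζ₁, add_zero]
  · show p.ζ₂ z + q.ζ₂ z = 0
    rw [hp.ζ₂, hq.ζ₂, add_zero]
  · show p.ζy z + q.ζy z = 0
    rw [hp.ζy, hq.ζy, add_zero]
  · show p.w₁ z + q.w₁ z = 0
    rw [hp.w₁, hq.w₁, add_zero]
  · show p.w₂ z + q.w₂ z = 0
    rw [hp.w₂, hq.w₂, add_zero]
  · show p.wb z + q.wb z = 0
    rw [hp.wb, hq.wb, add_zero]
  · show p.wc z + q.wc z = 0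
    rw [hp.wc, hq.wc, add_zero]

end gen

section vv

variable {n : ℕ} {χ : VV n → ℝ} {z : VV n}

theorem dx0 (hz : z ∉ tsupport χ) (i : Fin n) : dx i χ z = 0 := by
  show fderiv ℝ χ z _ = 0
  rw [(ev0 hz).fderiv_eq]
  simp

theorem dy0 (hz : z ∉ tsupport χ) (i : Fin n) : dy i χ z = 0 := by
  show fderiv ℝ χ z _ = 0
  rw [(ev0 hz).fderiv_eq]
  simp

theorem sq10 (hz : z ∉ tsupport χ) : sq1 χ z = 0 := by
  unfold sq1
  simp [dx0 hz, dy0 hz]

theorem sqp0 (hz : z ∉ tsupport χ) : sqp χ z = 0 := by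
  unfold sqp
  simp [dx0 hz, dy0 hz]

theorem Zc0 (K η : ℝ) (ρ En N k : VV n → ℝ) (hz : z ∉ tsupport χ) :
    H867.Z.Zc K η ρ En N k χ z = 0 := by
  unfold H867.Z.Zc
  rw [sq10 hz, sqp0 hz]
  simp

end vv

variable {n : ℕ}

/-- **Row Off, region 0.** -/
theorem off_z0 (L : Lc n) (e : Cst → ℝ) : RowOff (coz L e) .z0 := by
  refine EvC.of fun q d _ z hz => ?_
  have h := sq10 hz
  show Zr (H165.Tab.c0 _ _ _ _ _) z
  constructor <;> simp [H165.Tab.c0, h]

/-- **Row Off, region I.** -/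
theorem off_zI (L : Lc n) (e : Cst → ℝ) : RowOff (coz L e) .zI := by
  refine EvC.of fun q d _ z hz => ?_
  have h := sq10 hz
  have h' := sqp0 hz
  show Zr (H165.Tab.cI _ _ _ _ + cTu _ _ _ _ _) z
  refine Zr.add ?_ ?_
  · constructor <;> simp [H165.Tab.cI, h, h']
  · constructor <;> simp [cTu, h]

theorem cII_zr {ν : H165.Tab.Nu (VV n)} {C : ℝ} {Z : VV n → ℝ} {z : VV n} (h : Z z = 0) :
    Zr (H165.Tab.cII ν C Z) z := by
  unfold H165.Tab.cII
  exact Zr.sm0 _ (by rw [h, mul_zero])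

/-- **Row Off, zone II.** -/
theorem off_z2a (L : Lc n) (e : Cst → ℝ) : RowOff (coz L e) .z2a :=
  EvC.of fun _ _ _ _ hz => cII_zr (Zc0 _ _ _ _ _ _ hz)

theorem off_z2b (L : Lc n) (e : Cst → ℝ) : RowOff (coz L e) .z2b :=
  EvC.of fun _ _ _ _ hz => cII_zr (Zc0 _ _ _ _ _ _ hz)

theorem cB_zr {ν : H165.Tab.Nu (VV n)} {C : ℝ} {Z Z' : VV n → ℝ} {z : VV n} (h : Z z = 0)
    (h' : Z' z = 0) : Zr (H165.Tab.cB ν C Z Z') z := by
  unfold H165.Tab.cB
  refine Zr.add (Zr.sm0 _ (by rw [h, mul_zero])) ?_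
  constructor <;> simp [h']

/-- **Row Off, the core**: the letters `ZB`, `ZB'` vanish off the closed support. -/
theorem off_zB (L : Lc n) (e : Cst → ℝ)
    (h : EvC fun q => ∀ d : Pk n, PkOk q d → ∀ z, z ∉ tsupport (d.ch q .zB) →
      L.ZB q d z = 0 ∧ L.ZB' q d z = 0) : RowOff (coz L e) .zB :=
  h.mono fun _ h d ok z hz => cB_zr (h d ok z hz).1 (h d ok z hz).2

/-- **Row Off, zone A.** -/
theorem off_A1 (L : Lc n) (e : Cst → ℝ) : RowOff (coz L e) .A1 :=
  EvC.of fun _ _ _ _ hz => coA_zr _ _ _ _ _ hz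

theorem off_A2 (L : Lc n) (e : Cst → ℝ) : RowOff (coz L e) .A2 :=
  EvC.of fun _ _ _ _ hz => coA_zr _ _ _ _ _ hz

theorem off_Af (L : Lc n) (e : Cst → ℝ) : RowOff (coz L e) .Af :=
  EvC.of fun _ _ _ _ hz => coA_zr _ _ _ _ _ hz

/-- **Row Off, the passes**: the function `om` vanishes off the closed support. -/
theorem off_P1 (L : Lc n) (e : Cst → ℝ)
    (h : EvC fun q => ∀ d : Pk n, PkOk q d → ∀ z, z ∉ tsupport (d.ch q .P1) →
      L.om .P1 q d z = 0) : RowOff (coz L e) .P1 :=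
  h.mono fun _ h d ok z hz => coP_zr _ _ _ _ _ _ (h d ok z hz)

theorem off_P2 (L : Lc n) (e : Cst → ℝ)
    (h : EvC fun q => ∀ d : Pk n, PkOk q d → ∀ z, z ∉ tsupport (d.ch q .P2) →
      L.om .P2 q d z = 0) : RowOff (coz L e) .P2 :=
  h.mono fun _ h d ok z hz => coPm_zr _ _ _ _ _ _ (h d ok z hz)

/-- The leaves whose cost is `L.FC`. -/
def isF : Zo → Prop
  | .iH | .iF | .iS | .RSn | .RSf => True
  | _ => False

/-- **Row Off, the other leaves.** -/
theorem off_F (L : Lc n) (e : Cst → ℝ) {k : Zo} (hk : isF k)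
    (h : EvC fun q => ∀ d : Pk n, PkOk q d → ∀ z, z ∉ tsupport (d.ch q k) →
      Zr (L.FC k q d) z) : RowOff (coz L e) k := by
  cases k <;> first | exact False.elim hk | exact h

/-- Leaves with the cost `coA`. -/
theorem off_FA (L : Lc n) (e : Cst → ℝ) {k : Zo} (hk : isF k) {m : Cst → Pk n → VV n → ℝ}
    {η : Cst → ℝ}
    (h : ∀ q d, L.FC k q d = H747.SW.coA d.sx d.sy (d.W q) (m q d) (d.ch q k) (η q)) :
    RowOff (coz L e) k :=
  off_F L e hk (EvC.of fun q d _ z hz => by rw [h]; exact coA_zr _ _ _ _ _ hz)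

/-- Leaves with the cost `coU`. -/
theorem off_FU (L : Lc n) (e : Cst → ℝ) {k : Zo} (hk : isF k) {m₁ m₂ : Cst → Pk n → VV n → ℝ}
    {η : Cst → ℝ}
    (h : ∀ q d, L.FC k q d = H303.F.coU d.sx d.sy (m₁ q d) (m₂ q d) (d.ch q k) (η q)) :
    RowOff (coz L e) k :=
  off_F L e hk (EvC.of fun q d _ z hz => by rw [h]; exact coU_zr _ _ _ _ _ hz)

/-- Leaves with the cost `CiS`. -/
theorem off_FS (L : Lc n) (e : Cst → ℝ) {k : Zo} (hk : isF k)
    (h : ∀ q d, L.FC k q d = H380.INF.CiS (d.ch q k) q d) : RowOff (coz L e) k :=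
  off_F L e hk (EvC.of fun q d _ z hz => by rw [h]; exact cS_zr _ _ _ _ _ hz)

/-! ## For all parameters `e` -/

theorem offE_z0 (L : Lc n) : OffE L .z0 := fun e _ => off_z0 L e

theorem offE_zI (L : Lc n) : OffE L .zI := fun e _ => off_zI L e

theorem offE_z2a (L : Lc n) : OffE L .z2a := fun e _ => off_z2a L e

theorem offE_z2b (L : Lc n) : OffE L .z2b := fun e _ => off_z2b L e

theorem offE_A1 (L : Lc n) : OffE L .A1 := fun e _ => off_A1 L e

theorem offE_A2 (L : Lc n) : OffE L .A2 := fun e _ => off_A2 L e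

theorem offE_Af (L : Lc n) : OffE L .Af := fun e _ => off_Af L e

theorem offE_P1 (L : Lc n)
    (h : EvC fun q => ∀ d : Pk n, PkOk q d → ∀ z, z ∉ tsupport (d.ch q .P1) →
      L.om .P1 q d z = 0) : OffE L .P1 := fun e _ => off_P1 L e h

theorem offE_P2 (L : Lc n)
    (h : EvC fun q => ∀ d : Pk n, PkOk q d → ∀ z, z ∉ tsupport (d.ch q .P2) →
      L.om .P2 q d z = 0) : OffE L .P2 := fun e _ => off_P2 L e h

theorem offE_F (L : Lc n) {k : Zo} (hk : isF k)
    (h : EvC fun q => ∀ d : Pk n, PkOk q d → ∀ z, z ∉ tsupport (d.ch q k) →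
      Zr (L.FC k q d) z) : OffE L k := fun e _ => off_F L e hk h

theorem offE_FA (L : Lc n) {k : Zo} (hk : isF k) {m : Cst → Pk n → VV n → ℝ} {η : Cst → ℝ}
    (h : ∀ q d, L.FC k q d = H747.SW.coA d.sx d.sy (d.W q) (m q d) (d.ch q k) (η q)) :
    OffE L k := fun e _ => off_FA L e hk h

theorem offE_FU (L : Lc n) {k : Zo} (hk : isF k) {m₁ m₂ : Cst → Pk n → VV n → ℝ} {η : Cst → ℝ}
    (h : ∀ q d, L.FC k q d = H303.F.coU d.sx d.sy (m₁ q d) (m₂ q d) (d.ch q k) (η q)) :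
    OffE L k := fun e _ => off_FU L e hk h

theorem offE_FS (L : Lc n) {k : Zo} (hk : isF k)
    (h : ∀ q d, L.FC k q d = H380.INF.CiS (d.ch q k) q d) : OffE L k :=
  fun e _ => off_FS L e hk h

end Vale.Agent.P088.R2.H650.E
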