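import Vale.Agent.P088.R2.H650.E.Off
import Vale.Agent.P088.R2.H303.F.Lt

/-!
# P088, stage 3, EST': row Off of the leaf iF
-/

open Set Filter MeasureTheory
open scoped ContDiff Topology Matrix

noncomputable section

namespace Vale.Agent.P088.R2.H650.E

open Vale.Agent.P088.LR Vale.Agent.P088.HY
open Vale.Agent.P088.R2.H31.EP
open Vale.Agent.P088.R2.H551.E
open Vale.Agent.P088.R2.H455.E
open Vale.Agent.P088.R2.H558.G

variable {n : ℕ}

/-- The leaf `iF`. -/
theorem offE_iF (L : Lc n) (h : ∀ q d, L.FC .iF q d = H303.F.cozF q d) : OffE L .iF :=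
  offE_F L trivial (EvC.of fun q d _ z hz => by
    rw [h]
    exact coU_zr _ _ _ _ _ hz)

end Vale.Agent.P088.R2.H650.E
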