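import Vale.Agent.P088.R2.H710.EP.DC
import Vale.Agent.P088.R2.H349.EP.FW5
import Vale.Agent.P088.R2.H660.P.Rows

/-!
# P088, stage 3, EST': the function of the cost of the passes is bounded

`om_bd`: `0 ≤ omP d (d.ch q k) ≤ B q` where `ch k ≠ 0`, `tinf ≤ 0`, for `k = P1`, `P2`.
-/

open Set Filter
open scoped ContDiff Topology

noncomputable section

namespace Vale.Agent.P088.R2.H650.E

open Vale.Agent.P088.LR Vale.Agent.P088.HY
open Vale.Agent.P088.R2.H31.EP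
open Vale.Agent.P088.R2.H551.E
open Vale.Agent.P088.R2.H961.GW
open Vale.Agent.P088.R2.H867.EP
open Vale.Agent.P088.R2.H710.DC
open Vale.Agent.P088.R2.H660.P (dD omP)
open Vale.Agent.P088.R2.H349.EP (FwQ sl_bd)

variable {n : ℕ} {q : Cst} {d : Pk n} {z : VV n}

/-- Both slots, from the derivatives in the coordinate directions. -/
theorem jx_sl (hq : FwQ n q) (ok : PkOk q d) {f : VV n → ℝ} {a b : ℝ} (a0 : 0 ≤ a)
    (h : JX f a b z) :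
    ((∀ i, |d.sx.D i f z| ≤ a) ∧ |d.sx.Λ f z| ≤ n ^ 2 * (2 * b + a)) ∧
      (∀ i, |d.sy.D i f z| ≤ a) ∧ |d.sy.Λ f z| ≤ n ^ 2 * (2 * b + a) := by
  have Dx : ∀ (i : Fin n) (g : VV n → ℝ) (w : VV n),
      d.sx.D i g w = fderiv ℝ g w (ex (Sum.inl i)) := fun i g w => by
    show (1 : ℝ) * _ = _
    rw [one_mul]
    rfl
  have Dy : ∀ (i : Fin n) (g : VV n → ℝ) (w : VV n),
      d.sy.D i g w = fderiv ℝ g w (ex (Sum.inr i)) := fun i g w => by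
    show (1 : ℝ) * _ = _
    rw [one_mul]
    rfl
  have x1 : ∀ i, |d.sx.D i f z| ≤ a := fun i => by
    rw [Dx]
    simpa using h.d1 (Sum.inl i)
  have y1 : ∀ i, |d.sy.D i f z| ≤ a := fun i => by
    rw [Dy]
    simpa using h.d1 (Sum.inr i)
  have x2 : ∀ i j, |d.sx.D i (d.sx.D j f) z| ≤ b := fun i j => by
    have e : d.sx.D j f = fun y => fderiv ℝ f y (ex (Sum.inl j)) := funext fun y => Dx j f y
    rw [Dx, e]
    simpa using h.d2 (Sum.inl j) (Sum.inl i)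
  have y2 : ∀ i j, |d.sy.D i (d.sy.D j f) z| ≤ b := fun i j => by
    have e : d.sy.D j f = fun y => fderiv ℝ f y (ex (Sum.inr j)) := funext fun y => Dy j f y
    rw [Dy, e]
    simpa using h.d2 (Sum.inr j) (Sum.inr i)
  have b1 := hq.sb1 ok z.1
  have b2 := hq.sb2 ok z.2
  refine ⟨⟨x1, (sl_bd (x := z.1) a0 b1 (fun i j => rfl) (fun i => ?_) (fun i j => ?_) x1 x2).2⟩,
    y1, (sl_bd (x := z.2) a0 b2 (fun i j => rfl) (fun i => ?_) (fun i j => ?_) y1 y2).2⟩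
  · simp [Pk.sx, slx, H349.EP.pd_one]
  · have := Dx_fst (r := fun _ => (1 : ℝ)) (s := d.s₁) (z := z) (b1.df i j) i
    rw [one_mul] at this
    exact this
  · simp [Pk.sy, sly, H349.EP.pd_one]
  · have := Dy_snd (r := fun _ => (1 : ℝ)) (s := d.s₂) (z := z) (b2.df i j) i
    rw [one_mul] at this
    exact this

/-- The bound of `omP`. -/
theorem omP_le (hq : FwQ n q) (ok : PkOk q d) {f : VV n → ℝ} {a : ℝ} (a0 : 0 ≤ a)
    (h : JX f a a z) :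
    0 ≤ omP d f z ∧ omP d f z ≤ 2 * (n * a ^ 2) + 2 * (n ^ 2 * (3 * a)) ^ 2 := by
  obtain ⟨⟨x1, x2⟩, y1, y2⟩ := jx_sl hq ok a0 h
  have k1 : dD d.sx f z ≤ n * a ^ 2 := by
    calc dD d.sx f z ≤ ∑ _i : Fin n, a ^ 2 := Finset.sum_le_sum fun i _ => by
          rw [← sq_abs]
          exact pow_le_pow_left₀ (abs_nonneg _) (x1 i) 2
      _ = _ := by rw [Finset.sum_const, nsmul_eq_mul, Finset.card_univ, Fintype.card_fin]
  have k2 : dD d.sy f z ≤ n * a ^ 2 := by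
    calc dD d.sy f z ≤ ∑ _i : Fin n, a ^ 2 := Finset.sum_le_sum fun i _ => by
          rw [← sq_abs]
          exact pow_le_pow_left₀ (abs_nonneg _) (y1 i) 2
      _ = _ := by rw [Finset.sum_const, nsmul_eq_mul, Finset.card_univ, Fintype.card_fin]
  have k3 : d.sx.Λ f z ^ 2 ≤ (n ^ 2 * (3 * a)) ^ 2 := by
    rw [← sq_abs]
    refine pow_le_pow_left₀ (abs_nonneg _) (x2.trans (le_of_eq ?_)) 2
    ring
  have k4 : d.sy.Λ f z ^ 2 ≤ (n ^ 2 * (3 * a)) ^ 2 := by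
    rw [← sq_abs]
    refine pow_le_pow_left₀ (abs_nonneg _) (y2.trans (le_of_eq ?_)) 2
    ring
  have p1 : 0 ≤ dD d.sx f z := Finset.sum_nonneg fun _ _ => sq_nonneg _
  have p2 : 0 ≤ dD d.sy f z := Finset.sum_nonneg fun _ _ => sq_nonneg _
  constructor
  · unfold omP
    positivity
  · unfold omP
    linarith

/-- **`omP` is bounded at the passes.** -/
theorem om_bd (hn : 1 ≤ n) : ∃ B : Cst → ℝ, NB_c' B ∧ (∀ q, 0 ≤ B q) ∧ EvC fun q =>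
    ∀ d : Pk n, PkOk q d → ∀ z, d.tinf q z ≤ 0 → ∀ k : Zo, (k = .P1 ∨ k = .P2) →
      d.ch q k z ≠ 0 → 0 ≤ omP d (d.ch q k) z ∧ omP d (d.ch q k) z ≤ B q := by
  obtain ⟨B, b1, b2, b3⟩ := chP hn
  refine ⟨fun q => 2 * (n * B q ^ 2) + 2 * (n ^ 2 * (3 * B q)) ^ 2, fun q => ?_,
    fun q => by positivity, (b3.and (H349.EP.EvC.fwQ hn)).mono ?_⟩
  · show 2 * (n * B q.b_c' ^ 2) + 2 * (n ^ 2 * (3 * B q.b_c')) ^ 2 = _
    rw [b1 q]
  rintro q ⟨hb, hq⟩ d ok z ht k hk ha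
  exact omP_le hq ok (b2 q) (hb d ok z ht k hk ha)

/-- **`omP` where the tube is alive**: the constant does not depend on `rT`. -/
theorem om_bd0 (hn : 1 ≤ n) : ∃ B : Cst → ℝ, NB_rT B ∧ (∀ q, 0 ≤ B q) ∧ EvC fun q =>
    ∀ d : Pk n, PkOk q d → ∀ z,
      (d.ch q .T1 z ≠ 0 → d.ch q .P1 z ≠ 0 →
        0 ≤ omP d (d.ch q .P1) z ∧ omP d (d.ch q .P1) z ≤ B q) ∧
      (d.ch q .T2 z ≠ 0 → d.ch q .P2 z ≠ 0 →
        0 ≤ omP d (d.ch q .P2) z ∧ omP d (d.ch q .P2) z ≤ B q) := by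
  obtain ⟨B, b1, b2, b3⟩ := chP0 hn
  refine ⟨fun q => 2 * (n * B q ^ 2) + 2 * (n ^ 2 * (3 * B q)) ^ 2, fun q => ?_,
    fun q => by positivity, (b3.and (H349.EP.EvC.fwQ hn)).mono ?_⟩
  · show 2 * (n * B q.b_rT ^ 2) + 2 * (n ^ 2 * (3 * B q.b_rT)) ^ 2 = _
    rw [b1 q]
  rintro q ⟨hb, hq⟩ d ok z
  exact ⟨fun h1 h2 => omP_le hq ok (b2 q) ((hb d ok z).1 h1 h2),
    fun h1 h2 => omP_le hq ok (b2 q) ((hb d ok z).2 h1 h2)⟩

end Vale.Agent.P088.R2.H650.E
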